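import Vale.Agent.P241.H14.Chain
import Vale.Agent.P241.H32.Weyl

/-!
# P241, upper bound: the action of `L / A` on `X^A`

* `subQuot : SubQuot` : for `A ◁ L ≤ G` the fixed points `X^A` of a finite `G`-cell space are a
  finite `L/A`-cell space.
* `forces_of_cyclic`, `upperBound_of_cyclic`, `smith_of_cyclic` : the upper bound and
  `r_n(G, H) = ℓ(G, H)` from the case of cyclic groups.
-/

open CategoryTheory MonoidalCategory OnePoint
open Vale.Agent.P251.St Vale.Agent.P251.St.SHCat Vale.Agent.P241.St Vale.Agent.P241.Final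
open Vale.Agent.P241.H32

namespace Vale.Agent.P241.H14

section

variable {G : Type} [Group G] (A L : Subgroup G) [hn : (A.subgroupOf L).Normal]

theorem mk_out (w : L ⧸ A.subgroupOf L) : (QuotientGroup.mk (Quotient.out w) : L ⧸ A.subgroupOf L)
    = w := Quotient.out_eq' w

theorem inv_mul_mem {g h : L}
    (e : (QuotientGroup.mk g : L ⧸ A.subgroupOf L) = QuotientGroup.mk h) : (g : G)⁻¹ * h ∈ A := by
  have h1 : g⁻¹ * h ∈ A.subgroupOf L := QuotientGroup.eq.mp e
  exact h1

/-- the data of the action of `L / A` on the `A`-fixed points -/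
noncomputable def lSQ (hAL : A ≤ L) : SQ G (L ⧸ A.subgroupOf L) where
  A := A
  s w := ((Quotient.out w : L) : G)
  norm w a ha := by
    have h1 := hn.conj_mem ⟨a, hAL ha⟩ ha (Quotient.out w : L)⁻¹
    rw [inv_inv] at h1
    exact h1
  one := by
    have h1 : (QuotientGroup.mk (1 : L) : L ⧸ A.subgroupOf L) =
        QuotientGroup.mk (Quotient.out (1 : L ⧸ A.subgroupOf L)) := (mk_out A L 1).symm
    have h2 := inv_mul_mem A L h1
    simpa using h2
  mul w v := by
    have h1 : (QuotientGroup.mk (Quotient.out w * Quotient.out v) : L ⧸ A.subgroupOf L) =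
        QuotientGroup.mk (Quotient.out (w * v)) := by
      rw [mk_out, QuotientGroup.mk_mul, mk_out, mk_out]
    exact inv_mul_mem A L h1

end

/-- **For `A ◁ L ≤ G` the fixed points `X^A` are a finite `L/A`-cell space.** -/
theorem subQuot : SubQuot := by
  intro G _ _ X hX A L hn hAL
  refine ⟨(lSQ A L hAL).obj X, (lSQ A L hAL).gfc hX,
    ⟨((lSQ A L hAL).fixHomeo X ⊥ A fun g => ?_).symm⟩, ⟨(lSQ A L hAL).fixHomeo X ⊤ L fun g => ?_⟩⟩
  · have h1 : ((Quotient.out (1 : L ⧸ A.subgroupOf L) : L) : G) ∈ A := (lSQ A L hAL).one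
    constructor
    · intro hg
      exact ⟨1, Subgroup.one_mem _, A.mul_mem (A.inv_mem h1) hg⟩
    · rintro ⟨h, hh, hg⟩
      rw [Subgroup.mem_bot] at hh
      subst hh
      have h2 : ((Quotient.out (1 : L ⧸ A.subgroupOf L) : L) : G)⁻¹ * g ∈ A := hg
      have h3 := A.mul_mem h1 h2
      rwa [mul_inv_cancel_left] at h3
  · constructor
    · intro hg
      exact ⟨(QuotientGroup.mk (⟨g, hg⟩ : L) : L ⧸ A.subgroupOf L), Subgroup.mem_top _,
        inv_mul_mem A L (h := ⟨g, hg⟩) (mk_out A L _)⟩
    · rintro ⟨h, -, hg⟩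
      have h2 : ((Quotient.out h : L) : G)⁻¹ * g ∈ A := hg
      have h3 := L.mul_mem (Quotient.out h : L).2 (hAL h2)
      rwa [mul_inv_cancel_left] at h3

variable {T : SHCat} {S : Susp T} {p : ℕ}

theorem forces_of_cyclic [Fact p.Prime] (hC : CyclicCase S p)
    {K : ℕ → RingA T} (hK : ∀ i, IsMoravaK S p i (K i)) {G : Type} [Group G] [Finite G]
    (hG : IsPGroup p G) (H : Subgroup G) (n : ℕ) {r : ℕ} (hr : St.ell H ≤ r) :
    Forces S K H n r := forces_of_le H486.fixFC subQuot hC hK hG H n hr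

/-- **The upper bound `r_n(G, H) ≤ ℓ(G, H)`** from the case of cyclic groups. -/
theorem upperBound_of_cyclic [Fact p.Prime] (hC : CyclicCase S p) : UpperBound S p :=
  upperBound_of H486.fixFC subQuot hC

/-- **`r_n(G, H) = ℓ(G, H)`** from the lower bound and the upper bound for cyclic groups. -/
theorem smith_of_cyclic [Fact p.Prime] (hC : CyclicCase S p) (hL : LowerBound S p) : Smith S p :=
  smith_of H486.fixFC subQuot hC hL

end Vale.Agent.P241.H14
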