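import Mathlib.Algebra.Polynomial.Module.Basic
import Mathlib.Algebra.Polynomial.Expand
import Mathlib.RingTheory.Polynomial.Basic
import Mathlib.RingTheory.Ideal.Quotient.Operations
import Mathlib.Tactic

/-!
# P241, block UB: the algebra of the upper bound (blueshift for cyclic groups)

`M[x] = PolynomialModule A M`. If `alpha ^ d` kills `M[x] / (x ^ N, F)`, where `alpha` and `F` are
the `s`-th and `(s+1)`-st iterates of a truncated `p`-series `f`, then `v ^ (d * c)` kills `M`.
-/

open Polynomial

namespace Vale.Agent.P241.H14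

variable {A : Type*} [CommRing A] {M : Type*} [AddCommGroup M] [Module A M]

/-- the coefficients of `c` of index `< N` vanish, that is, `c ∈ x ^ N M[x]` -/
def Low (N : ℕ) (c : PolynomialModule A M) : Prop := ∀ i < N, c.coeff i = 0

theorem Low.mono {N N' : ℕ} (h : N' ≤ N) {c : PolynomialModule A M} (hc : Low N c) : Low N' c :=
  fun i hi => hc i (hi.trans_le h)

theorem Low.zero (N : ℕ) : Low N (0 : PolynomialModule A M) := fun i _ => by simp

theorem Low.add {N : ℕ} {c c' : PolynomialModule A M} (h : Low N c) (h' : Low N c') :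
    Low N (c + c') := fun i hi => by
  simp [h i hi, h' i hi]

theorem Low.neg {N : ℕ} {c : PolynomialModule A M} (h : Low N c) : Low N (-c) := fun i hi => by
  have := h i hi
  have h2 : (c + -c).coeff i = 0 := by simp
  rw [PolynomialModule.coeff_add, Finsupp.add_apply, this, zero_add] at h2
  exact h2

theorem Low.sub {N : ℕ} {c c' : PolynomialModule A M} (h : Low N c) (h' : Low N c') :
    Low N (c - c') := by
  rw [sub_eq_add_neg]; exact h.add h'.neg

theorem Low.smul {N : ℕ} {c : PolynomialModule A M} (h : Low N c) (f : A[X]) : Low N (f • c) := by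
  intro i hi
  rw [PolynomialModule.smul_apply]
  refine Finset.sum_eq_zero fun x hx => ?_
  have hx' : x.1 + x.2 = i := by simpa using hx
  rw [h x.2 (by omega), smul_zero]

theorem coeff_C_smul (a : A) (c : PolynomialModule A M) (i : ℕ) :
    (C a • c).coeff i = a • c.coeff i := by
  rw [← Polynomial.monomial_zero_left, PolynomialModule.monomial_smul_apply]
  simp

theorem coeff_X_pow_smul (w : ℕ) (c : PolynomialModule A M) (i : ℕ) :
    ((X : A[X]) ^ w • c).coeff i = if w ≤ i then c.coeff (i - w) else 0 := by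
  rw [Polynomial.X_pow_eq_monomial, PolynomialModule.monomial_smul_apply]
  simp

theorem Low.of_X_pow {N w : ℕ} {c : PolynomialModule A M} (h : Low N ((X : A[X]) ^ w • c)) :
    Low (N - w) c := by
  intro i hi
  have := h (i + w) (by omega)
  rw [coeff_X_pow_smul, if_pos (by omega)] at this
  simpa using this

theorem Low.X_pow {w : ℕ} (c : PolynomialModule A M) : Low w ((X : A[X]) ^ w • c) := by
  intro i hi
  rw [coeff_X_pow_smul, if_neg (by omega)]

theorem Low.of_unit {N : ℕ} {U : A[X]} (hU : ∀ m : M, U.coeff 0 • m = 0 → m = 0)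
    {c : PolynomialModule A M} (h : Low N (U • c)) : Low N c := by
  intro i
  induction i using Nat.strong_induction_on with
  | _ i ih =>
    intro hi
    apply hU
    have h1 := h i hi
    rw [PolynomialModule.smul_apply, Finset.sum_eq_single (0, i)] at h1
    · exact h1
    · intro x hx hne
      have hx' : x.1 + x.2 = i := by simpa using hx
      have : x.2 < i := by
        rcases Nat.lt_or_ge x.2 i with h | h
        · exact h
        · exfalso; apply hne
          have h3 : x.2 = i := by omega
          have h4 : x.1 = 0 := by omega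
          exact Prod.ext h4 h3
      rw [ih x.2 this (this.trans hi), smul_zero]
    · intro hx; exfalso; apply hx; simp

section core

variable {v : A} {F G U : A[X]} {w : ℕ}

/-- `F c ∈ x ^ N M[x]` and `v ^ j c = 0` imply `c ∈ x ^ (N - j w) M[x]` -/
theorem claimA (hF : ∀ c : PolynomialModule A M, F • c = (X : A[X]) ^ w • (U • c) + G • (C v • c))
    (hU : ∀ m : M, U.coeff 0 • m = 0 → m = 0) {N : ℕ} (j : ℕ) :
    ∀ c : PolynomialModule A M, Low N (F • c) → C v ^ j • c = 0 → Low (N - j * w) c := by
  induction j with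
  | zero =>
    intro c _ h0
    have : c = 0 := by simpa using h0
    rw [this]; exact Low.zero _
  | succ j ih =>
    intro c hc h0
    have h1 : Low (N - j * w) (C v • c) := by
      apply ih
      · rw [smul_comm]; exact hc.smul _
      · rw [← mul_smul, ← pow_succ]; exact h0
    have h2 : Low (N - j * w) ((X : A[X]) ^ w • (U • c)) := by
      have h3 : (X : A[X]) ^ w • (U • c) = F • c - G • (C v • c) := by
        rw [hF c]; abel
      rw [h3]
      exact (hc.mono (Nat.sub_le _ _)).sub (h1.smul _)
    have h4 := (h2.of_X_pow).of_unit hU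
    refine h4.mono ?_
    rw [Nat.succ_mul]; omega

/-- the one-element step -/
theorem step1 (hF : ∀ c : PolynomialModule A M, F • c = (X : A[X]) ^ w • (U • c) + G • (C v • c))
    (hU : ∀ m : M, U.coeff 0 • m = 0 → m = 0)
    {z Z1 Z2 : A[X]} {w' : ℕ} (hw : w' < w)
    (hz : ∀ c : PolynomialModule A M, z • c = (X : A[X]) ^ w' • (Z2 • c) + Z1 • (C v • c))
    (hZ : ∀ m : M, Z2.coeff 0 • m = 0 → m = 0)
    {k N : ℕ} (hv : ∀ m : M, v ^ k • m = 0) (hN : k * w ≤ N) (m : M) (hm : v • m = 0)
    (b : PolynomialModule A M) (hb : Low N (z • PolynomialModule.single A 0 m - F • b)) :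
    m = 0 := by
  rcases Nat.eq_zero_or_pos k with hk | hk
  · subst hk; simpa using hv m
  have e0 : C v • PolynomialModule.single A 0 m = 0 := by
    apply PolynomialModule.ext
    ext i
    rw [coeff_C_smul]
    rcases Nat.eq_zero_or_pos i with h | h
    · subst h; simp [hm]
    · simp [Nat.pos_iff_ne_zero.mp h |>.symm]
  have h1 : Low N (F • (C v • b)) := by
    have h2 := hb.smul (C v)
    have h3 : C v • (z • PolynomialModule.single A 0 m - F • b) = -(F • (C v • b)) := by
      rw [smul_sub, smul_comm (C v) z, e0, smul_zero, zero_sub, smul_comm (C v) F]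
    rw [h3] at h2
    simpa using h2.neg
  have h4 : Low w (C v • b) := by
    have h5 : C v ^ (k - 1) • (C v • b) = 0 := by
      rw [← mul_smul, ← pow_succ, Nat.sub_add_cancel hk]
      apply PolynomialModule.ext
      ext i
      rw [← map_pow, coeff_C_smul, hv]; simp
    refine (claimA hF hU (k - 1) _ h1 h5).mono ?_
    obtain ⟨k', rfl⟩ : ∃ k', k = k' + 1 := ⟨k - 1, by omega⟩
    rw [Nat.add_sub_cancel]
    rw [Nat.succ_mul] at hN
    omega
  have hwN : w ≤ N := by
    refine le_trans ?_ hN
    exact Nat.le_mul_of_pos_left w hk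
  have h6 : Low w (F • b) := by
    rw [hF b]
    exact (Low.X_pow _).add (h4.smul _)
  have h7 : Low w (z • PolynomialModule.single A 0 m) := by
    have := (hb.mono hwN).add h6
    simpa using this
  rw [hz, e0, smul_zero, add_zero] at h7
  have h8 := h7 w' hw
  rw [coeff_X_pow_smul, if_pos le_rfl, Nat.sub_self, PolynomialModule.smul_single_apply] at h8
  exact hZ m (by simpa using h8)

theorem step2 (hF : ∀ c : PolynomialModule A M, F • c = (X : A[X]) ^ w • (U • c) + G • (C v • c))
    (hU : ∀ m : M, U.coeff 0 • m = 0 → m = 0)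
    {z Z1 Z2 : A[X]} {w' : ℕ} (hw : w' < w)
    (hz : ∀ c : PolynomialModule A M, z • c = (X : A[X]) ^ w' • (Z2 • c) + Z1 • (C v • c))
    (hZ : ∀ m : M, Z2.coeff 0 • m = 0 → m = 0)
    {k N : ℕ} (hv : ∀ m : M, v ^ k • m = 0) (hN : k * w ≤ N) (j : ℕ) :
    ∀ (m : M) (_ : v ^ j • m = 0) (b : PolynomialModule A M)
      (_ : Low N (z • PolynomialModule.single A 0 m - F • b)), m = 0 := by
  induction j with
  | zero => intro m hm _ _; simpa using hm
  | succ j ih =>
    intro m hm b hb
    apply ih m _ b hb
    apply step1 hF hU hw hz hZ hv hN (v ^ j • m) _ (C (v ^ j) • b)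
    · have h2 := hb.smul (C (v ^ j))
      have h3 : C (v ^ j) • (z • PolynomialModule.single A 0 m - F • b) =
          z • PolynomialModule.single A 0 (v ^ j • m) - F • (C (v ^ j) • b) := by
        rw [smul_sub, smul_comm _ z, smul_comm _ F]
        congr 2
        apply PolynomialModule.ext
        ext i
        rw [coeff_C_smul]
        simp [Finsupp.single_apply]
      rw [h3] at h2
      exact h2
    · rw [← mul_smul, ← pow_succ']; exact hm

theorem core (hF : ∀ c : PolynomialModule A M, F • c = (X : A[X]) ^ w • (U • c) + G • (C v • c))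
    (hU : ∀ m : M, U.coeff 0 • m = 0 → m = 0)
    {z Z1 Z2 H : A[X]} {w' : ℕ} (hw : w' < w)
    (hz : ∀ c : PolynomialModule A M, z • c = (X : A[X]) ^ w' • (Z2 • c) + Z1 • (C v • c))
    (hZ : ∀ m : M, Z2.coeff 0 • m = 0 → m = 0)
    (hFz : ∀ c : PolynomialModule A M, F • c = C v • (z • c) + (z ^ 2 * H) • c)
    {k N d : ℕ} (hv : ∀ m : M, v ^ k • m = 0) (hN : k * w ≤ N)
    (hyp : ∀ m : M, ∃ b : PolynomialModule A M,
      Low N (z ^ d • PolynomialModule.single A 0 m - F • b)) (m : M) : v ^ d • m = 0 := by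
  have key : ∀ j : ℕ, ∃ T : A[X], ∀ c : PolynomialModule A M,
      C v ^ j • (z • c) = F • (T • c) + (z ^ (j + 1) * (-H) ^ j) • c := by
    intro j
    induction j with
    | zero => exact ⟨0, fun c => by simp⟩
    | succ j ih =>
      obtain ⟨T, hT⟩ := ih
      refine ⟨C v * T + z ^ j * (-H) ^ j, fun c => ?_⟩
      have e1 : C v ^ (j + 1) • (z • c) = C v • (C v ^ j • (z • c)) := by
        rw [← mul_smul (C v), ← pow_succ']
      have e2 : C v • (z • c) = F • c - (z ^ 2 * H) • c := by
        rw [hFz c]; abel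
      have e3 : C v • ((z ^ (j + 1) * (-H) ^ j) • c) = (z ^ j * (-H) ^ j) • (C v • (z • c)) := by
        simp only [← mul_smul]; congr 1; ring
      rw [e1, hT c, smul_add, e3, e2, smul_sub]
      simp only [← mul_smul, add_smul, smul_add]
      rw [sub_eq_add_neg, ← neg_smul, add_assoc]
      congr 1
      · congr 1; ring
      · congr 1
        · congr 1; ring
        · congr 1; ring
  obtain ⟨T, hT⟩ := key d
  obtain ⟨b, hb⟩ := hyp m
  refine step2 hF hU hw hz hZ hv hN k _ (hv _)
    (T • PolynomialModule.single A 0 m + (z * (-H) ^ d) • b) ?_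
  have e1 : PolynomialModule.single A 0 (v ^ d • m) = C v ^ d • PolynomialModule.single A 0 m := by
    apply PolynomialModule.ext
    ext i
    rw [← map_pow, coeff_C_smul]
    simp [Finsupp.single_apply]
  have e2 : z • PolynomialModule.single A 0 (v ^ d • m) -
      F • (T • PolynomialModule.single A 0 m + (z * (-H) ^ d) • b) =
      (z * (-H) ^ d) • (z ^ d • PolynomialModule.single A 0 m - F • b) := by
    rw [e1, smul_comm z, hT, smul_add, smul_sub, add_sub_add_left_eq_sub]
    congr 1
    · rw [← mul_smul]; congr 1; ring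
    · rw [smul_comm]
  rw [e2]
  exact hb.smul _

end core


/-! ### The iterates of the truncated `p`-series -/

/-- the iterates `x, f(x), f(f(x)), ...` -/
noncomputable def it (f : A[X]) : ℕ → A[X]
  | 0 => X
  | i + 1 => f.comp (it f i)

theorem it_mod (J : Ideal A) (vt : A) (f f2 : A[X]) (P : ℕ) (hP : 0 < P) (h0 : f2.coeff 0 = vt)
    (hf : f.map (Ideal.Quotient.mk J) = (X ^ P * f2).map (Ideal.Quotient.mk J)) (i : ℕ) :
    ∃ (e : ℕ) (b : A[X]), b.coeff 0 = vt ^ e ∧
      (it f i).map (Ideal.Quotient.mk J) = (X ^ (P ^ i) * b).map (Ideal.Quotient.mk J) := by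
  induction i with
  | zero => exact ⟨0, 1, by simp, by simp [it]⟩
  | succ i ih =>
    obtain ⟨e, b, hb, hi⟩ := ih
    refine ⟨e * P + 1, b ^ P * f2.comp (X ^ (P ^ i) * b), ?_, ?_⟩
    · have hpos : P ^ i ≠ 0 := (pow_pos hP i).ne'
      rw [coeff_zero_eq_eval_zero, eval_mul, eval_pow, ← coeff_zero_eq_eval_zero, hb, eval_comp,
        eval_mul, eval_pow, eval_X, zero_pow hpos, zero_mul, ← coeff_zero_eq_eval_zero, h0]
      ring
    · rw [it, Polynomial.map_comp, hf, hi, ← Polynomial.map_comp]
      congr 1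
      rw [mul_comp, pow_comp, X_comp, mul_pow, ← pow_mul, ← pow_succ]
      ring

theorem smul_eq_zero_of_coeff_mem {I : Ideal A} (hIM : ∀ i ∈ I, ∀ m : M, i • m = 0) {p : A[X]}
    (hp : ∀ n, p.coeff n ∈ I) (c : PolynomialModule A M) : p • c = 0 := by
  apply PolynomialModule.ext
  ext n
  rw [PolynomialModule.smul_apply]
  simpa using Finset.sum_eq_zero fun x _ => hIM _ (hp x.1) (c.coeff x.2)

theorem act_congr {I : Ideal A} (hIM : ∀ i ∈ I, ∀ m : M, i • m = 0) {p q : A[X]}
    (h : p.map (Ideal.Quotient.mk I) = q.map (Ideal.Quotient.mk I)) (c : PolynomialModule A M) :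
    p • c = q • c := by
  rw [← sub_eq_zero, ← sub_smul]
  refine smul_eq_zero_of_coeff_mem hIM (fun n => ?_) c
  have := congrArg (fun r => r.coeff n) h
  simp only [coeff_map] at this
  rw [coeff_sub]
  exact Ideal.Quotient.eq.mp this

theorem act_congr_sup {I : Ideal A} (hIM : ∀ i ∈ I, ∀ m : M, i • m = 0) {p q : A[X]} {v : A}
    (h : p.map (Ideal.Quotient.mk (I ⊔ Ideal.span {v})) =
      q.map (Ideal.Quotient.mk (I ⊔ Ideal.span {v}))) :
    ∃ G : A[X], ∀ c : PolynomialModule A M, p • c = q • c + G • (C v • c) := by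
  have h1 : p - q ∈ Ideal.map (C : A →+* A[X]) (I ⊔ Ideal.span {v}) := by
    rw [Ideal.mem_map_C_iff]
    intro n
    have := congrArg (fun r => r.coeff n) h
    simp only [coeff_map] at this
    rw [coeff_sub]
    exact Ideal.Quotient.eq.mp this
  rw [Ideal.map_sup, Ideal.map_span, Set.image_singleton] at h1
  obtain ⟨i, hi, j, hj, hij⟩ := Submodule.mem_sup.mp h1
  obtain ⟨G, rfl⟩ := Ideal.mem_span_singleton'.mp hj
  refine ⟨G, fun c => ?_⟩
  have h2 : p = q + i + G * C v := by
    linear_combination -hij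
  rw [h2, add_smul, add_smul, mul_smul,
    smul_eq_zero_of_coeff_mem hIM (fun n => (Ideal.mem_map_C_iff.mp hi) n) c, add_zero]

theorem inj_pow {vt : A} (h : ∀ m : M, vt • m = 0 → m = 0) (e : ℕ) :
    ∀ m : M, vt ^ e • m = 0 → m = 0 := by
  induction e with
  | zero => intro m hm; simpa using hm
  | succ e ih =>
    intro m hm
    rw [pow_succ, mul_smul] at hm
    exact h m (ih _ hm)

/-- the case where `I` kills `M` -/
theorem blue0 (I : Ideal A) (v vt : A) (f f2 g : A[X]) (q p : ℕ) (hq : 0 < q) (hp : 1 < p)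
    (h1 : f.map (Ideal.Quotient.mk I) =
      (expand A q (C v * X + X ^ 2 * g)).map (Ideal.Quotient.mk I))
    (h2 : f.map (Ideal.Quotient.mk (I ⊔ Ideal.span {v})) =
      (X ^ (q * p) * f2).map (Ideal.Quotient.mk (I ⊔ Ideal.span {v})))
    (h3 : f2.coeff 0 = vt) (hvt : ∀ m : M, vt • m = 0 → m = 0)
    {k N d : ℕ} (hv : ∀ m : M, v ^ k • m = 0) (hIM : ∀ i ∈ I, ∀ m : M, i • m = 0)
    (s : ℕ) (hN : k * (q * p) ^ (s + 1) ≤ N)
    (hyp : ∀ m : M, ∃ b : PolynomialModule A M,
      Low N ((it f s) ^ d • PolynomialModule.single A 0 m - (it f (s + 1)) • b)) (m : M) :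
    v ^ d • m = 0 := by
  have hqp : 0 < q * p := Nat.mul_pos hq (by omega)
  obtain ⟨e, b, hb, hi⟩ := it_mod _ vt f f2 (q * p) hqp h3 h2 s
  obtain ⟨e', b', hb', hi'⟩ := it_mod _ vt f f2 (q * p) hqp h3 h2 (s + 1)
  obtain ⟨G, hG⟩ := act_congr_sup hIM hi'
  have hz0 : ((it f s) ^ q).map (Ideal.Quotient.mk (I ⊔ Ideal.span {v})) =
      (X ^ ((q * p) ^ s * q) * b ^ q).map (Ideal.Quotient.mk (I ⊔ Ideal.span {v})) := by
    rw [Polynomial.map_pow, hi, ← Polynomial.map_pow, mul_pow, ← pow_mul]
  obtain ⟨Z1, hZ1⟩ := act_congr_sup hIM hz0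
  refine core (F := it f (s + 1)) (G := G) (U := b') (w := (q * p) ^ (s + 1)) (z := (it f s) ^ q)
    (Z1 := Z1) (Z2 := b ^ q) (H := g.comp ((it f s) ^ q)) (w' := (q * p) ^ s * q) (v := v)
    (k := k) (N := N) (d := d) ?_ ?_ ?_ ?_ ?_ ?_ hv hN ?_ m
  · intro c; rw [hG c, mul_smul]
  · rw [hb']; exact inj_pow hvt _
  · rw [pow_succ, ← mul_assoc]
    exact (Nat.lt_mul_iff_one_lt_right (Nat.mul_pos (pow_pos hqp s) hq)).mpr hp
  · intro c; rw [hZ1 c, mul_smul]
  · have : (b ^ q).coeff 0 = vt ^ (e * q) := by
      rw [coeff_zero_eq_eval_zero, eval_pow, ← coeff_zero_eq_eval_zero, hb, ← pow_mul]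
    rw [this]; exact inj_pow hvt _
  · intro c
    have h4 : (it f (s + 1)).map (Ideal.Quotient.mk I) =
        (C v * (it f s) ^ q + ((it f s) ^ q) ^ 2 * g.comp ((it f s) ^ q)).map
          (Ideal.Quotient.mk I) := by
      rw [it, Polynomial.map_comp, h1, ← Polynomial.map_comp]
      congr 1
      rw [expand_eq_comp_X_pow, comp_assoc, pow_comp, X_comp]
      simp [add_comp, mul_comp, pow_comp]
    rw [act_congr hIM h4, add_smul, mul_smul]
  · intro m
    obtain ⟨b, hb⟩ := hyp m
    refine ⟨(it f s) ^ ((q - 1) * d) • b, ?_⟩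
    have := hb.smul ((it f s) ^ ((q - 1) * d))
    rw [smul_sub, smul_comm _ (it f (s + 1)), ← mul_smul, ← pow_add] at this
    have e1 : (it f s ^ q) ^ d = it f s ^ ((q - 1) * d + d) := by
      rw [← pow_mul]
      congr 1
      obtain ⟨q', rfl⟩ : ∃ q', q = q' + 1 := ⟨q - 1, by omega⟩
      simp [Nat.succ_mul]
    rw [e1]
    exact this

/-- **The algebra of the upper bound.** `f` is a truncated `p`-series, `I = (v_0, .., v_(n-1))`
is nilpotent on `M`, `v = v_n` is nilpotent on `M` (any exponent `k`), `vt = v_(n+1)` is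
bijective on `M`, `q = p ^ n`. If `alpha ^ d = 0` on `M[x] / (x ^ N, F)`, `alpha = [p ^ s](x)`,
`F = [p ^ (s + 1)](x)`, for one `N` which is large with respect to `k`, then `v ^ (d * c) M = 0`. -/
theorem blue (I : Ideal A) (v vt : A) (f f2 g : A[X]) (q p : ℕ) (hq : 0 < q) (hp : 1 < p)
    (h1 : f.map (Ideal.Quotient.mk I) =
      (expand A q (C v * X + X ^ 2 * g)).map (Ideal.Quotient.mk I))
    (h2 : f.map (Ideal.Quotient.mk (I ⊔ Ideal.span {v})) =
      (X ^ (q * p) * f2).map (Ideal.Quotient.mk (I ⊔ Ideal.span {v})))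
    (h3 : f2.coeff 0 = vt) (hvt : Function.Bijective fun m : M => vt • m)
    {k N d c : ℕ} (hv : ∀ m : M, v ^ k • m = 0)
    (hI : I ^ c • (⊤ : Submodule A M) = ⊥)
    (s : ℕ) (hN : k * (q * p) ^ (s + 1) ≤ N)
    (hyp : ∀ m : M, ∃ b : PolynomialModule A M,
      Low N ((it f s) ^ d • PolynomialModule.single A 0 m - (it f (s + 1)) • b)) (m : M) :
    v ^ (d * c) • m = 0 := by
  -- the quotient `M / I M`
  have hstep : ∀ m : M, v ^ d • m ∈ I • (⊤ : Submodule A M) := by
    intro m
    have := blue0 (M := M ⧸ (I • (⊤ : Submodule A M))) I v vt f f2 g q p hq hp h1 h2 h3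
      ?_ (k := k) (N := N) (d := d) ?_ ?_ s hN ?_ (Submodule.Quotient.mk m)
    · rw [← Submodule.Quotient.mk_smul, Submodule.Quotient.mk_eq_zero] at this
      exact this
    · intro x
      induction x using Submodule.Quotient.induction_on with
      | _ x =>
        intro hx
        rw [← Submodule.Quotient.mk_smul, Submodule.Quotient.mk_eq_zero] at hx
        rw [Submodule.Quotient.mk_eq_zero]
        have key : ∀ y ∈ I • (⊤ : Submodule A M), ∃ y' ∈ I • (⊤ : Submodule A M),
            vt • y' = y := by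
          intro y hy
          induction hy using Submodule.smul_induction_on' with
          | smul r hr n _ =>
            obtain ⟨n', hn'⟩ := hvt.2 n
            refine ⟨r • n', Submodule.smul_mem_smul hr trivial, ?_⟩
            rw [smul_comm, ← hn']
          | add y _ z _ hy hz =>
            obtain ⟨y', h1, h2⟩ := hy
            obtain ⟨z', h3, h4⟩ := hz
            exact ⟨y' + z', Submodule.add_mem _ h1 h3, by rw [smul_add, h2, h4]⟩
        obtain ⟨y', hy', he⟩ := key _ hx
        have : y' = x := hvt.1 he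
        rwa [← this]
    · intro x
      induction x using Submodule.Quotient.induction_on with
      | _ x => rw [← Submodule.Quotient.mk_smul, hv]; rfl
    · intro i hi x
      induction x using Submodule.Quotient.induction_on with
      | _ x =>
        rw [← Submodule.Quotient.mk_smul, Submodule.Quotient.mk_eq_zero]
        exact Submodule.smul_mem_smul hi trivial
    · intro x
      induction x using Submodule.Quotient.induction_on with
      | _ x =>
        obtain ⟨b, hb⟩ := hyp x
        refine ⟨PolynomialModule.map A (Submodule.mkQ (I • (⊤ : Submodule A M))) b, ?_⟩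
        have e1 : (it f s) ^ d • PolynomialModule.single A 0
            (Submodule.Quotient.mk x : M ⧸ (I • (⊤ : Submodule A M))) - (it f (s + 1)) •
              PolynomialModule.map A (Submodule.mkQ (I • (⊤ : Submodule A M))) b =
            PolynomialModule.map A (Submodule.mkQ (I • (⊤ : Submodule A M)))
              ((it f s) ^ d • PolynomialModule.single A 0 x - (it f (s + 1)) • b) := by
          rw [map_sub, PolynomialModule.map_smul, PolynomialModule.map_smul,
            PolynomialModule.map_single]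
          simp
        rw [e1]
        intro i hi
        have := hb i hi
        simp [PolynomialModule.map, this]
  have hall : ∀ j : ℕ, ∀ m : M, v ^ (d * j) • m ∈ I ^ j • (⊤ : Submodule A M) := by
    intro j
    induction j with
    | zero => intro m; simp
    | succ j ih =>
      intro m
      have h4 := hstep m
      have h5 : ∀ y ∈ I • (⊤ : Submodule A M), v ^ (d * j) • y ∈ I ^ (j + 1) • (⊤ : Submodule A M) := by
        intro y hy
        induction hy using Submodule.smul_induction_on' with
        | smul r hr n _ =>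
          rw [smul_comm, pow_succ', Submodule.mul_smul]
          exact Submodule.smul_mem_smul hr (ih n)
        | add y _ z _ hy hz =>
          rw [smul_add]; exact Submodule.add_mem _ hy hz
      have h6 := h5 _ h4
      rw [← mul_smul, ← pow_add] at h6
      rw [Nat.mul_succ]
      exact h6
  have := hall c m
  rw [hI] at this
  exact (Submodule.mem_bot A).mp this

end Vale.Agent.P241.H14
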