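import Vale.Agent.P241.Final.Level1

/-!
# P241, upper bound: reduction to cyclic groups

* `CyclicCase S p` : for a cyclic `p`-group `C` and a finite `C`-cell space `X`,
  `K(n+1)_* X = 0` implies `K(n)_* (X^C) = 0`.
* `SubQuot` : for `A ◁ L ≤ G` the fixed points `X^A` of a finite `G`-cell space are a finite
  `L/A`-cell space `Y` with `Y^1 = X^A` and `Y^(L/A) = X^L`.
* `forces_of_le` : `Forces S K H n r` for all `r ≥ ℓ(G, H)` from the two.
* `upperBound_of`, `smith_of` : `UpperBound S p` and (with `LowerBound S p`) `Smith S p`.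
-/

open CategoryTheory MonoidalCategory OnePoint
open Vale.Agent.P251.St Vale.Agent.P251.St.SHCat Vale.Agent.P241.St Vale.Agent.P241.Final

namespace Vale.Agent.P241.H14

/-- The fixed points `X^A` as a finite `L/A`-cell space. -/
def SubQuot : Prop :=
  ∀ (G : Type) [Group G] [Finite G] (X : GSpace G), GFC G X → ∀ (A L : Subgroup G)
    [(A.subgroupOf L).Normal], A ≤ L →
    ∃ Y : GSpace (L ⧸ A.subgroupOf L), GFC (L ⧸ A.subgroupOf L) Y ∧
      Nonempty ((X.fix A).carrier ≃ₜ (Y.fix ⊥).carrier) ∧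
      Nonempty ((Y.fix ⊤).carrier ≃ₜ (X.fix L).carrier)

variable {T : SHCat} (S : Susp T) (p : ℕ)

/-- The upper bound for cyclic groups. -/
def CyclicCase : Prop :=
  ∀ K : ℕ → RingA T, (∀ i, IsMoravaK S p i (K i)) →
    ∀ (C : Type) [Group C] [Finite C] [IsCyclic C], IsPGroup p C → ∀ n : ℕ,
      Forces S K (⊥ : Subgroup C) n 1

theorem acyclic_of_homeo {E : T.C} {X Y : Space} (hX : FC X) (hY : FC Y)
    (e : X.carrier ≃ₜ Y.carrier) (h : Acyclic E (S.obj X)) : Acyclic E (S.obj Y) :=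
  acyclic_of_maps S hX hY (mapOfHomeo e) (mapOfHomeo e.symm) (mapOfHomeo_comp e) h

variable {S p}

/-- One step of the chain. -/
theorem forces_step (hF : FixFC) (hQ : SubQuot) (hC : CyclicCase S p)
    {K : ℕ → RingA T} (hK : ∀ i, IsMoravaK S p i (K i)) {G : Type} [Group G] [Finite G]
    (hG : IsPGroup p G) {X : GSpace G} (hX : GFC G X) {A L : Subgroup G} (hAL : A ≤ L)
    (hn : (A.subgroupOf L).Normal) (hc : IsCyclic (L ⧸ A.subgroupOf L)) {n : ℕ}
    (h : Acyclic (K (n + 1)).obj (S.obj (X.fix A))) : Acyclic (K n).obj (S.obj (X.fix L)) := by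
  obtain ⟨Y, hY, ⟨e1⟩, ⟨e2⟩⟩ := hQ G X hX A L hAL
  have hp : IsPGroup p (L ⧸ A.subgroupOf L) := (hG.to_subgroup L).to_quotient _
  refine acyclic_of_homeo S (hF _ Y hY _) (hF _ X hX _) e2 ?_
  exact hC K hK _ hp n Y hY
    (acyclic_of_homeo S (hF _ X hX _) (hF _ Y hY _) e1 h)

/-- A chain of length `s` from `H` to `G` gives `r_n(G, H) ≤ s`. -/
theorem forces_of_chain (hF : FixFC) (hQ : SubQuot) (hC : CyclicCase S p)
    {K : ℕ → RingA T} (hK : ∀ i, IsMoravaK S p i (K i)) {G : Type} [Group G] [Finite G]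
    (hG : IsPGroup p G) {H : Subgroup G} {s : ℕ} (h1 : HasCyclicChain H s) (n : ℕ) :
    Forces S K H n s := by
  intro X hX h
  obtain ⟨c, hc0, hcs, hc⟩ := h1
  have key : ∀ i, i ≤ s → Acyclic (K (n + (s - i))).obj (S.obj (X.fix (c i))) := by
    intro i
    induction i with
    | zero =>
      intro _
      rw [hc0]
      exact h
    | succ i ih =>
      intro hi
      obtain ⟨h3, h4, h5⟩ := hc i (by omega)
      refine forces_step hF hQ hC hK hG hX h3 h4 h5 ?_
      have h6 := ih (by omega)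
      rwa [show n + (s - i) = n + (s - (i + 1)) + 1 by omega] at h6
  have h7 := key s le_rfl
  rw [hcs, Nat.sub_self] at h7
  exact h7

theorem hasCyclicChain_ell [Fact p.Prime] {G : Type} [Group G] [Finite G] (hG : IsPGroup p G)
    (H : Subgroup G) : HasCyclicChain H (St.ell H) := by
  have h2 := H122.chain_ell hG H
  rw [← ell_eq] at h2
  exact H122.hasCyclicChain_iff.2 h2

/-- Chains can be prolonged by the trivial step `⊤ = ⊤`. -/
theorem hasCyclicChain_mono {G : Type} [Group G] {H : Subgroup G} {s r : ℕ}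
    (h : HasCyclicChain H s) (hsr : s ≤ r) : HasCyclicChain H r := by
  have h1 : H122.Chain (⊤ : Subgroup G) ⊤ (r - s) :=
    ⟨fun _ => ⊤, rfl, rfl, fun _ _ => ⟨1, Subgroup.one_mem _, (top_sup_eq _).symm⟩⟩
  have h2 := (H122.hasCyclicChain_iff.1 h).trans h1
  rw [Nat.add_sub_cancel' hsr] at h2
  exact H122.hasCyclicChain_iff.2 h2

/-- **`K(n+r)_* (X^H) = 0` implies `K(n)_* (X^G) = 0` for all `r ≥ ℓ(G, H)`.** -/
theorem forces_of_le [Fact p.Prime] (hF : FixFC) (hQ : SubQuot) (hC : CyclicCase S p)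
    {K : ℕ → RingA T} (hK : ∀ i, IsMoravaK S p i (K i)) {G : Type} [Group G] [Finite G]
    (hG : IsPGroup p G) (H : Subgroup G) (n : ℕ) {r : ℕ} (hr : St.ell H ≤ r) :
    Forces S K H n r :=
  forces_of_chain hF hQ hC hK hG (hasCyclicChain_mono (hasCyclicChain_ell hG H) hr) n

/-- **The upper bound** `r_n(G, H) ≤ ℓ(G, H)` from the case of cyclic groups. -/
theorem upperBound_of [Fact p.Prime] (hF : FixFC) (hQ : SubQuot) (hC : CyclicCase S p) :
    UpperBound S p := fun _ hK _ _ _ hG H n => forces_of_le hF hQ hC hK hG H n le_rfl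

/-- **`r_n(G, H) = ℓ(G, H)`** from the lower bound and the upper bound for cyclic groups. -/
theorem smith_of [Fact p.Prime] (hF : FixFC) (hQ : SubQuot) (hC : CyclicCase S p)
    (hL : LowerBound S p) : Smith S p := by
  intro K hK G _ _ hG H n
  have h : ∀ r, Forces S K H n r ↔ St.ell H ≤ r := fun r =>
    ⟨fun hr => hL.le hK hG hr, fun hr => forces_of_le hF hQ hC hK hG H n hr⟩
  refine ⟨?_, h⟩
  have h1 : {r | Forces S K H n r} = Set.Ici (St.ell H) := Set.ext h
  change sInf {r | Forces S K H n r} = _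
  rw [h1]
  exact csInf_Ici

end Vale.Agent.P241.H14
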