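import Vale.Agent.P241.H588.LensQ

/-!
# P241, upper bound: the Euler class of `d` copies of a line bundle

* `copies d V` : the sum of `d` copies of `V`; `e_copies : o.e (copies d V) = o.e V ^ d`;
* `lensLine q I j` : the bundle `(taut ^ j)` over the lens space, `e_lensLine`;
* `mapAlg_lens_pow` : the class `a • [j](z)^d` pulled back to the lens space is the restriction of
  `a • thom` to the zero section, for the sum of `d` copies of `lensLine q I j`.
-/

set_option linter.style.haveILetI false

open CategoryTheory MonoidalCategory OnePoint Topology Matrix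
open Vale.Agent.P251.G Vale.Agent.P251.G.LC Vale.Agent.P251.G.Bun

universe v

noncomputable section

namespace Vale.Agent.P241.H14

open Vale.Agent.P251.Q Vale.Agent.P251.Q.MultTheory Vale.Agent.P241.EUL Vale.Agent.P241.H588
open Vale.Agent.P217 Vale.Agent.P251.F

/-- the sum of `d` copies of a bundle -/
abbrev copies {X : Type} [TopologicalSpace X] {ι : Type} [Fintype ι] (d : ℕ) (V : Bun X ι) :
    Bun X (Σ _ : Fin d, ι) := Bun.sigma fun _ : Fin d => V

theorem isRank_copies {X : Type} [TopologicalSpace X] {ι : Type} [Fintype ι] (d : ℕ)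
    {V : Bun X ι} (hV : V.IsRank 1) : (copies d V).IsRank d := by
  have h := IsRank.sigma (V := fun _ : Fin d => V) (n := fun _ => 1) fun _ => hV
  have h1 : (∑ _ : Fin d, 1) = d := by simp
  exact h1.subst (motive := fun n => (copies d V).IsRank n) h

section

variable {E : MultTheory.{v}} (o : Orientation E) {B : LC} [CompactSpace B] [hB : GoodBase E B]
  {ι : Type} [Fintype ι]

/-- the Euler class of `d` copies of a line bundle, any proof of the rank -/
theorem e_copies (V : Bun B ι) (hV : V.IsRank 1) (d : ℕ) (hd : (copies d V).IsRank d) :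
    o.e (copies d V) hd = o.e V hV ^ d := by
  have h1 : (∑ _ : Fin d, 1) = d := by simp
  rw [e_congr_rank o h1.symm hd (IsRank.sigma (V := fun _ : Fin d => V) (n := fun _ => 1)
    fun _ => hV), e_sigma_fin o (fun _ : Fin d => V) (fun _ => 1) fun _ => hV, Finset.prod_const,
    Finset.card_univ, Fintype.card_fin]

/-- the Thom class of `d` copies restricted to the zero section -/
theorem map_zeroMor_copies (V : Bun B ι) (hV : V.IsRank 1) (d : ℕ) :
    E.map (zeroMor (copies d V)) (o.thom (copies d V) (isRank_copies d hV)) = o.e V hV ^ d := by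
  rw [map_zeroMor_thom, e_copies o V hV]

end

section lens

variable {E : MultTheory.{v}} (o : Orientation E) (q : ℕ) (I : Type) [Fintype I] (j d : ℕ)

/-- the `j`-th power of the tautological bundle, over the lens space -/
abbrev lensLine : Bun (LC.of (Lens q I) : LC) (Fin j → I) :=
  ((taut 1 I).tpow j).pullback (Lens.toGr q I)

theorem isRank_lensLine : (lensLine q I j).IsRank 1 := fun x =>
  (taut_isRank 1 I).tpow1 j (Lens.toGr q I x)

instance goodBase_lens : GoodBase E (LC.of (Lens q I)) := inferInstance

/-- the Euler class of the bundle over the lens space -/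
theorem e_lensLine : o.e (B := LC.of (Lens q I)) (lensLine q I j) (isRank_lensLine q I j) =
    E.mapAlg (lensPrC q I) (nev1 (o.z I) (multSeries o.law.toFG j)) := by
  have hB : GoodBase E (LC.of (Lens q I)) := inferInstance
  have hB' : GoodBase E (CP I) := inferInstance
  have hr := (taut_isRank 1 I).tpow1 j
  haveI := hB'.tot _ hr
  haveI := hB.tot _ (isRank_lensLine q I j)
  have h3 := e_pullback_alg o (B := CP I) (B' := LC.of (Lens q I)) (lensPrC q I)
    ((taut 1 I).tpow j) hr (isRank_lensLine q I j)
  rw [e_tpow_z] at h3
  exact h3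

theorem e_copies_lensLine : o.e (B := LC.of (Lens q I)) (copies d (lensLine q I j))
    (isRank_copies d (isRank_lensLine q I j)) =
      E.mapAlg (lensPrC q I) (nev1 (o.z I) (multSeries o.law.toFG j) ^ d) := by
  rw [map_pow, ← e_lensLine]
  exact e_copies o (B := LC.of (Lens q I)) (lensLine q I j) (isRank_lensLine q I j) d _

/-- **The class `a • [j](z)^d` on the lens space.** -/
theorem mapAlg_lens_pow (a : E.A) :
    E.mapAlg (lensPrC q I) (a • nev1 (o.z I) (multSeries o.law.toFG j) ^ d) =
      E.map (zeroMor (Z := LC.of (Lens q I)) (copies d (lensLine q I j)))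
        (a • o.thom (B := LC.of (Lens q I)) (copies d (lensLine q I j))
          (isRank_copies d (isRank_lensLine q I j))) := by
  have h1 := e_copies_lensLine o q I j d
  have hB : GoodBase E (LC.of (Lens q I)) := inferInstance
  haveI := hB.tot _ (isRank_copies d (isRank_lensLine q I j))
  rw [← map_zeroMor_thom] at h1
  rw [_root_.map_smul, ← h1]
  exact (MultTheory.map_smul _ _ _).symm

end lens

end Vale.Agent.P241.H14
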