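import Vale.Agent.P241.H402.AcCls
import Vale.Agent.P251.S.TensorShift

/-!
# P241, upper bound: the formal end of (G3)

`g3_fin` : if `f ⊗ (Y × ℝ)` factors, up to homotopy, through a space `W` with `N ⊗ Σ W = 0`, then
`N ⊗ Σ f ⊗ Σ Y = 0`.
-/

open CategoryTheory MonoidalCategory Limits Pretriangulated Topology OnePoint
  Vale.Agent.P251.G Vale.Agent.P251.G.LC Vale.Agent.P251.I Vale.Agent.P251.T
  Vale.Agent.P241.H402

universe v u

set_option linter.unusedSectionVars false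

noncomputable section

namespace Vale.Agent.P241.H14

section mon

variable {T : Type u} [Category.{v} T] [Preadditive T] [MonoidalCategory T]
  [MonoidalPreadditive T]

theorem wl_tensor_zero {N X X' Z : T} {g : X ⟶ X'} (h : N ◁ g = 0) : N ◁ (g ▷ Z) = 0 := by
  have h1 : (N ◁ g) ▷ Z = (α_ N X Z).hom ≫ N ◁ (g ▷ Z) ≫ (α_ N X' Z).inv := whisker_assoc N g Z
  rw [h, MonoidalPreadditive.zero_whiskerRight] at h1
  rw [← cancel_mono (α_ N X' Z).inv, ← cancel_epi (α_ N X Z).hom, ← h1, zero_comp, comp_zero]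

theorem wl_iso_zero {N X X' Y Y' : T} {g : X ⟶ X'} {k : Y ⟶ Y'} (e : X ⟶ Y) [IsIso e]
    (e' : X' ⟶ Y') [IsIso e'] (w : g ≫ e' = e ≫ k) (h : N ◁ g = 0) : N ◁ k = 0 := by
  have h1 : k = inv e ≫ g ≫ e' := by rw [w, IsIso.inv_hom_id_assoc]
  rw [h1, MonoidalCategory.whiskerLeft_comp, MonoidalCategory.whiskerLeft_comp, h, zero_comp,
    comp_zero]

end mon

variable {T : Type u} [Category.{v} T] [Preadditive T] [HasZeroObject T]
    [HasShift T ℤ] [∀ n : ℤ, (shiftFunctor T n).Additive] [Pretriangulated T]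
    [MonoidalCategory T] [SymmetricCategory T] [TensorTriangulated T] (F : SpaceFunctor T)

theorem wl_shift_zero {N X X' : T} {g : X ⟶ X'} (h : N ◁ (g⟦(1 : ℤ)⟧') = 0) : N ◁ g = 0 := by
  have h1 : N ◁ (g ▷ ((𝟙_ T)⟦(1 : ℤ)⟧)) = 0 :=
    wl_iso_zero (Vale.Agent.P251.S.tensorSph 1 X).inv (Vale.Agent.P251.S.tensorSph 1 X').inv (by
      rw [← cancel_epi (Vale.Agent.P251.S.tensorSph 1 X).hom, ← cancel_mono (Vale.Agent.P251.S.tensorSph 1 X').hom]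
      simp only [Category.assoc, Iso.inv_hom_id, Category.comp_id, Iso.hom_inv_id_assoc]
      exact (Vale.Agent.P251.S.tensorSph_naturality 1 g).symm) h
  have h2 : (N ◁ g) ▷ ((𝟙_ T)⟦(1 : ℤ)⟧) = 0 := by
    rw [whisker_assoc, h1, zero_comp, comp_zero]
  have h3 := Vale.Agent.P251.S.tensorSph_naturality 1 (N ◁ g)
  rw [h2, zero_comp] at h3
  apply (shiftFunctor T (1 : ℤ)).map_injective
  rw [Functor.map_zero, ← cancel_epi (Vale.Agent.P251.S.tensorSph 1 (N ⊗ X)).hom, comp_zero]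
  exact h3.symm

variable {F}

/-- a factorisation through an acyclic space -/
theorem map_zero_of_factor {N : T} {A B : FCat} (k : A ⟶ B) {W : LC} (hW : Nul F N W)
    (j : A.obj ⟶ W) (r : W ⟶ B.obj) (h : Homotopic (j ≫ r) k.hom) : N ◁ F.S.map k = 0 := by
  obtain ⟨h1, h2⟩ := hW
  let W' : FCat := ⟨W, h1⟩
  have e : F.S.map k = F.S.map (FCat.hom (X := A) (Y := W') j) ≫
      F.S.map (FCat.hom (X := W') (Y := B) r) := by
    rw [← Functor.map_comp]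
    exact (F.map_hom_eq h).symm
  have e2 : N ◁ F.S.map (FCat.hom (X := A) (Y := W') j) = 0 := h2.eq_of_tgt _ _
  rw [e, MonoidalCategory.whiskerLeft_comp, e2, zero_comp]

/-- **The formal end of (G3).** -/
theorem g3_fin {N : T} {Q Q' Y A B : FCat} (f : Q ⟶ Q') (φ : A ⟶ B) (hφ : IsHEquiv φ.hom)
    (θ : A.obj ≅ Y.obj ⊗ RR) {W : LC} (hW : Nul F N W) (j : Q.obj ⊗ A.obj ⟶ W)
    (r : W ⟶ Q'.obj ⊗ B.obj) (h : Homotopic (j ≫ r) (f.hom ▷ A.obj ≫ Q'.obj ◁ φ.hom)) :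
    N ◁ (F.S.map f ▷ F.S.obj Y) = 0 := by
  have h1 : N ◁ F.S.map (f ▷ A ≫ Q' ◁ φ) = 0 :=
    map_zero_of_factor (A := Q ⊗ A) (B := Q' ⊗ B) (f ▷ A ≫ Q' ◁ φ) hW j r h
  have h2 : IsIso (F.S.map (Q' ◁ φ)) := by
    have := F.isIso_map φ hφ
    have e : F.S.map (Q' ◁ φ) = (Functor.Monoidal.μIso F.S Q' A).inv ≫
        F.S.obj Q' ◁ F.S.map φ ≫ (Functor.Monoidal.μIso F.S Q' B).hom := by
      rw [Functor.Monoidal.μIso_hom, Functor.LaxMonoidal.μ_natural_right,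
        Functor.Monoidal.μIso_inv, Functor.Monoidal.δ_μ_assoc]
    rw [e]
    infer_instance
  have h3 : N ◁ F.S.map (f ▷ A) = 0 := by
    rw [Functor.map_comp, MonoidalCategory.whiskerLeft_comp] at h1
    rwa [← cancel_mono (N ◁ F.S.map (Q' ◁ φ)), zero_comp]
  -- the line factor
  let θ' : A ≅ Y ⊗ RRF := ⟨FCat.hom θ.hom, FCat.hom θ.inv, ObjectProperty.hom_ext _ θ.hom_inv_id,
    ObjectProperty.hom_ext _ θ.inv_hom_id⟩
  let a : Q ⊗ A ≅ (Q ⊗ Y) ⊗ RRF := whiskerLeftIso Q θ' ≪≫ (α_ Q Y RRF).symm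
  let b : Q' ⊗ A ≅ (Q' ⊗ Y) ⊗ RRF := whiskerLeftIso Q' θ' ≪≫ (α_ Q' Y RRF).symm
  have h4 : N ◁ F.S.map ((f ▷ Y) ▷ RRF) = 0 := by
    refine wl_iso_zero (g := F.S.map (f ▷ A)) (k := F.S.map ((f ▷ Y) ▷ RRF))
      (F.S.mapIso a).hom (F.S.mapIso b).hom ?_ h3
    rw [Functor.mapIso_hom, Functor.mapIso_hom, ← Functor.map_comp, ← Functor.map_comp]
    congr 1
    change f ▷ A ≫ Q' ◁ θ'.hom ≫ (α_ Q' Y RRF).inv =
      (Q ◁ θ'.hom ≫ (α_ Q Y RRF).inv) ≫ (f ▷ Y) ▷ RRF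
    rw [← whisker_exchange_assoc, Category.assoc, associator_inv_naturality_left]
  have h5 : N ◁ ((F.S.map (f ▷ Y))⟦(1 : ℤ)⟧') = 0 :=
    wl_iso_zero (F.suspIso (Q ⊗ Y)).hom (F.suspIso (Q' ⊗ Y)).hom
      (F.suspIso_naturality (f ▷ Y)) h4
  exact wl_iso_zero (Functor.Monoidal.μIso F.S Q Y).inv (Functor.Monoidal.μIso F.S Q' Y).inv
    (by
      rw [Functor.Monoidal.μIso_inv, Functor.Monoidal.μIso_inv]
      exact (Functor.OplaxMonoidal.δ_natural_left F.S f Y).symm) (wl_shift_zero h5)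

/-- the form used for (G3) -/
theorem g3_fin' {N : T} {Q Q' : FCat} (f : Q ⟶ Q') (Y : FCat) (W : LC) (hW : Nul F N W)
    (J : Q.obj ⊗ (Y.obj ⊗ RR) ⟶ W) (R : W ⟶ Q'.obj ⊗ (Y.obj ⊗ RR))
    (h : Homotopic (f.hom ▷ (Y.obj ⊗ RR)) (J ≫ R)) :
    N ◁ (F.S.map f ▷ F.S.obj Y) = 0 := by
  refine g3_fin (A := Y ⊗ RRF) (B := Y ⊗ RRF) f (𝟙 _) ?_ (Iso.refl _) hW J R ?_
  · refine ⟨𝟙 _, ?_, ?_⟩
    · exact Homotopic.refl _
    · exact Homotopic.refl _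
  · refine h.symm.trans ?_
    change Homotopic _ (f.hom ▷ (Y.obj ⊗ RR) ≫ Q'.obj ◁ 𝟙 (Y.obj ⊗ RR))
    rw [MonoidalCategory.whiskerLeft_id, Category.comp_id]
    exact Homotopic.refl _

end Vale.Agent.P241.H14
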