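import Vale.Agent.P241.H588.IHomMod
import Vale.Agent.P093.N2.Dual
import Vale.Agent.P251.St.ToChrom
import Vale.Agent.P251.M.LimTheory
import Vale.Agent.P251.M.CofTri

/-!
# P241, upper bound: internal homs and dualizable objects

`ihom_whiskerLeft_eq_zero` : if `f : Q ⟶ Q'`, `Q'` has a dual and `Z ⊗ f = 0`, then
`ihom A Z ⊗ f = 0`; `ihom_susp_zero` : the case of a map of finite cell spaces.
-/

open CategoryTheory MonoidalCategory Limits

universe v u

set_option linter.unusedSectionVars false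

noncomputable section

namespace Vale.Agent.P241.H14

open Vale.Agent.P241.H588

variable {T : Type u} [Category.{v} T] [Preadditive T] [MonoidalCategory T]
  [MonoidalPreadditive T]

theorem whiskerLeft_whiskerRight_zero {Z Q Q' : T} {f : Q ⟶ Q'} (h : Z ◁ f = 0) (D : T) :
    Z ◁ (f ▷ D) = 0 := by
  have h1 : (Z ◁ f) ▷ D = (α_ Z Q D).hom ≫ Z ◁ (f ▷ D) ≫ (α_ Z Q' D).inv :=
    whisker_assoc Z f D
  rw [h, MonoidalPreadditive.zero_whiskerRight] at h1
  rw [← cancel_mono (α_ Z Q' D).inv, ← cancel_epi (α_ Z Q D).hom, ← h1, zero_comp, comp_zero]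

/-- a map to a dualizable object is zero after tensoring if its adjoint is -/
theorem whiskerLeft_eq_zero_of_dual {W Q Q' D : T} [ExactPairing D Q'] (f : Q ⟶ Q')
    (h : W ◁ (f ▷ D ≫ ε_ D Q') = 0) : W ◁ f = 0 := by
  have h1 : f = (ρ_ Q).inv ≫ Q ◁ η_ D Q' ≫ (α_ Q D Q').inv ≫ (f ▷ D ≫ ε_ D Q') ▷ Q' ≫
      (λ_ Q').hom := by
    have h2 := ExactPairing.coevaluation_evaluation D Q'
    rw [comp_whiskerRight, Category.assoc, ← associator_inv_naturality_left_assoc,
      whisker_exchange_assoc]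
    have h3 : Q' ◁ η_ D Q' ≫ (α_ Q' D Q').inv ≫ ε_ D Q' ▷ Q' ≫ (λ_ Q').hom = (ρ_ Q').hom := by
      have h4 := congrArg (· ≫ (λ_ Q').hom) h2
      simpa only [Category.assoc, Iso.inv_hom_id, Category.comp_id] using h4
    rw [h3, rightUnitor_naturality, Iso.inv_hom_id_assoc]
  rw [h1]
  simp only [MonoidalCategory.whiskerLeft_comp] at h ⊢
  have h5 := whiskerLeft_whiskerRight_zero (Z := W) (f := f ▷ D ≫ ε_ D Q')
    (by rw [MonoidalCategory.whiskerLeft_comp]; exact h) Q'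
  rw [h5, zero_comp, comp_zero, comp_zero, comp_zero]

variable [SymmetricCategory T] [MonoidalClosed T]

theorem ihom_whiskerLeft_eq_zero_unit {A Z Q : T} (k : Q ⟶ 𝟙_ T) (h : Z ◁ k = 0) :
    ((ihom A).obj Z) ◁ k = 0 := by
  rw [← cancel_mono (ρ_ ((ihom A).obj Z)).hom, zero_comp]
  apply MonoidalClosed.uncurry_injective
  rw [uncurry_eq', uncurry_eq', MonoidalPreadditive.whiskerLeft_zero, zero_comp,
    MonoidalCategory.whiskerLeft_comp, Category.assoc]
  have h1 : A ◁ (ρ_ ((ihom A).obj Z)).hom ≫ evA A Z =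
      (α_ A ((ihom A).obj Z) (𝟙_ T)).inv ≫ evA A Z ▷ 𝟙_ T ≫ (ρ_ Z).hom := by
    rw [rightUnitor_naturality, rightUnitor_tensor_hom, Category.assoc, Iso.inv_hom_id_assoc]
  rw [h1, associator_inv_naturality_right_assoc, whisker_exchange_assoc, h]
  simp only [zero_comp, comp_zero]

/-- **The lemma on internal homs.** -/
theorem ihom_whiskerLeft_eq_zero {A Z Q Q' D : T} [ExactPairing D Q'] (f : Q ⟶ Q')
    (h : Z ◁ f = 0) : ((ihom A).obj Z) ◁ f = 0 := by
  refine whiskerLeft_eq_zero_of_dual (D := D) f (ihom_whiskerLeft_eq_zero_unit _ ?_)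
  rw [MonoidalCategory.whiskerLeft_comp, whiskerLeft_whiskerRight_zero h, zero_comp]

section susp

open Vale.Agent.P251 Vale.Agent.P251.G Vale.Agent.P251.G.LC Vale.Agent.P251.I

variable {T : St.SHCat} (S : St.Susp T)

theorem isCpt_fcat (X : FCat) : Vale.Agent.P251.S.IsCpt (S.toSpaceFunctor.S.obj X) := by
  have h := M.isCpt_space S.toSpaceFunctor (M.cofTriangles S.toSpaceFunctor) X.property
  exact (M.isCpt_iff _).1 h

/-- `ihom A Z ⊗ Σ f = 0` if `Z ⊗ Σ f = 0`, `f` a morphism of finite cell spaces. -/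
theorem ihom_susp_zero {A Z : T.C} {Q Q' : FCat} (f : Q ⟶ Q')
    (h : Z ◁ S.toSpaceFunctor.S.map f = 0) :
    ((ihom A).obj Z) ◁ S.toSpaceFunctor.S.map f = 0 := by
  obtain ⟨hD⟩ := Vale.Agent.P093.N2.Dual.exists_dual (isCpt_fcat S Q')
  exact ihom_whiskerLeft_eq_zero (D := (ihom (S.toSpaceFunctor.S.obj Q')).obj (𝟙_ T.C)) _ h

end susp

end Vale.Agent.P241.H14
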