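import Vale.Agent.P241.H14.EPow

/-!
# P241, upper bound: from the sphere times `ℂ^d` to the total space over the lens space

`lensTot lam κ q j d : LC.of (LS lam κ × (Fin d → ℂ)) ⟶ (copies d (lensLine q κ j)).tot`,
`(x, c) ↦ c ⊗ x^{⊗ j}` over the class of `x`; it is proper, `lensTot (g • x, c)` is
`lensTot (x, (lam g)^j • c)`, and `lensTot (x, 0)` is the zero section at the class of `x`.
-/

set_option linter.style.haveILetI false

open CategoryTheory MonoidalCategory OnePoint Topology Matrix Filter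
open Vale.Agent.P251.G Vale.Agent.P251.G.LC Vale.Agent.P251.G.Bun

universe v

noncomputable section

namespace Vale.Agent.P241.H14

open Vale.Agent.P251.Q Vale.Agent.P251.Q.MultTheory Vale.Agent.P241.EUL Vale.Agent.P241.H588
open Vale.Agent.P217 Vale.Agent.P251.F

variable {C : Type} [Group C] (lam : C →* Circle) (κ : Type) [Fintype κ] (q j d : ℕ)

section

variable {lam κ j d}

/-- the vector `c ⊗ x^{⊗ j}` -/
def ltVec (x : LS lam κ) (c : Fin d → ℂ) : (Σ _ : Fin d, (Fin j → κ)) → ℂ :=
  fun a => c a.1 * tp j x.v a.2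

theorem ltVec_apply (x : LS lam κ) (c : Fin d → ℂ) (a : Σ _ : Fin d, (Fin j → κ)) :
    ltVec x c a = c a.1 * tp j x.v a.2 := rfl

theorem nsq_ltVec (x : LS lam κ) (c : Fin d → ℂ) :
    nsq (ltVec x c : (Σ _ : Fin d, (Fin j → κ)) → ℂ) = nsq c := by
  rw [nsq_sigma]
  have h1 : nsq (tp j x.v) = 1 := by rw [nsq_tp, x.nsq_v, one_pow]
  have h2 : ∀ i : Fin d, (fun k : Fin j → κ =>
      (ltVec x c : (Σ _ : Fin d, (Fin j → κ)) → ℂ) ⟨i, k⟩) = c i • tp j x.v := fun i => rfl
  have h3 : ∀ i : Fin d, nsq (c i • tp j x.v) = Complex.normSq (c i) := by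
    intro i
    rw [nsq_smul, h1, mul_one]
  simp only [h2, h3]
  rfl

theorem ltVec_mem (x : LS lam κ) (c : Fin d → ℂ) :
    (copies d (lensLine q κ j)).P (lensMap lam κ q x) *ᵥ ltVec x c = ltVec x c := by
  rw [copies, sigma_fixed_iff]
  intro i
  change tpow j (lineP x.v) *ᵥ (c i • tp j x.v) = c i • tp j x.v
  rw [mulVec_smul, tpow_mulVec_tp, lineP_mulVec_self x.nsq_v]

theorem continuous_ltVec :
    Continuous fun p : LS lam κ × (Fin d → ℂ) =>
      (ltVec p.1 p.2 : (Σ _ : Fin d, (Fin j → κ)) → ℂ) := by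
  refine continuous_pi fun a => ?_
  exact ((continuous_apply a.1).comp continuous_snd).mul
    ((continuous_apply a.2).comp ((continuous_tp j).comp (LS.continuous_v.comp continuous_fst)))

theorem ltVec_smul (g : C) (x : LS lam κ) (c : Fin d → ℂ) :
    (ltVec (g • x) c : (Σ _ : Fin d, (Fin j → κ)) → ℂ) = ltVec x ((lam g : ℂ) ^ j • c) := by
  funext a
  rw [ltVec_apply, ltVec_apply, LS.smul_v, tp_smul, Pi.smul_apply, Pi.smul_apply, smul_eq_mul,
    smul_eq_mul]
  ring

theorem lensMap_smul (hq : q ≠ 0) (hC : Nat.card C = q) (g : C) (x : LS lam κ) :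
    lensMap lam κ q (g • x) = lensMap lam κ q x := by
  refine ((SS.lens_eq_iff hq).mpr ⟨(lam g : ℂ), ?_, rfl⟩).symm
  rw [← Circle.coe_pow, ← map_pow, ← hC, pow_card_eq_one', map_one, Circle.coe_one]

end

/-- the point `c ⊗ x^{⊗ j}` over the class of `x` -/
def ltE (p : LS lam κ × (Fin d → ℂ)) : (copies d (lensLine q κ j)).E :=
  mkE _ (lensMap lam κ q p.1) (ltVec p.1 p.2) (ltVec_mem q p.1 p.2)

theorem continuous_ltE : Continuous (ltE lam κ q j d) :=
  continuous_mkE ((continuous_lensMap lam κ q).comp continuous_fst) continuous_ltVec _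

theorem tendsto_ltE : Tendsto (ltE lam κ q j d) (cocompact _) (cocompact _) := by
  have h1 : Tendsto (fun p : LS lam κ × (Fin d → ℂ) => nsq (vec (ltE lam κ q j d p)))
      (cocompact _) atTop := by
    have h2 : (fun p : LS lam κ × (Fin d → ℂ) => nsq (vec (ltE lam κ q j d p))) =
        nsq ∘ Prod.snd := funext fun p => nsq_ltVec p.1 p.2
    rw [h2]
    have h3 : Tendsto (nsq : (Fin d → ℂ) → ℝ) (cocompact (Fin d → ℂ)) atTop := by
      rw [cocompact_vec]
      exact tendsto_comap
    exact h3.comp tendsto_snd_cocompact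
  have h4 : Tendsto (fun p : LS lam κ × (Fin d → ℂ) => vec (ltE lam κ q j d p))
      (cocompact _) (cocompact _) := by
    rw [cocompact_vec]
    exact tendsto_comap_iff.2 h1
  have h5 : Continuous (vec : (copies d (lensLine q κ j)).E → (Σ _ : Fin d, (Fin j → κ)) → ℂ) :=
    continuous_vec
  have h6 : Tendsto (ltE lam κ q j d) (cocompact _)
      (comap (vec : (copies d (lensLine q κ j)).E → (Σ _ : Fin d, (Fin j → κ)) → ℂ)
        (cocompact _)) := tendsto_comap_iff.2 h4
  exact h6.mono_right (Filter.comap_cocompact_le h5)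

/-- the map to the total space -/
def lensTot : (LC.of (LS lam κ × (Fin d → ℂ)) : LC) ⟶ Bun.tot (X := LC.of (Lens q κ))
    (copies d (lensLine q κ j)) :=
  ofProper (X := LC.of (LS lam κ × (Fin d → ℂ)))
    (Y := Bun.tot (X := LC.of (Lens q κ)) (copies d (lensLine q κ j))) (ltE lam κ q j d)
    (continuous_ltE lam κ q j d) (tendsto_ltE lam κ q j d)

theorem app_lensTot (p : LS lam κ × (Fin d → ℂ)) :
    app (lensTot lam κ q j d) (p : OnePoint (LS lam κ × (Fin d → ℂ))) =
      (ltE lam κ q j d p : OnePoint _) := rfl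

variable {lam}

theorem ltE_smul (hq : q ≠ 0) (hC : Nat.card C = q) (g : C) (x : LS lam κ) (c : Fin d → ℂ) :
    ltE lam κ q j d (g • x, c) = ltE lam κ q j d (x, (lam g : ℂ) ^ j • c) :=
  E_ext (lensMap_smul q hq hC g x) (ltVec_smul g x c)

/-- the invariance of the map -/
theorem ltE_smul_smul (hq : q ≠ 0) (hC : Nat.card C = q) (g : C) (u : ℂ)
    (hu : u * (lam g : ℂ) ^ j = 1) (x : LS lam κ) (c : Fin d → ℂ) :
    ltE lam κ q j d (g • x, u • c) = ltE lam κ q j d (x, c) := by
  rw [ltE_smul κ q j d hq hC, smul_smul, mul_comm, hu, one_smul]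

theorem ltE_zero (x : LS lam κ) :
    ltE lam κ q j d (x, 0) = (copies d (lensLine q κ j)).zeroSec (lensMap lam κ q x) := by
  refine E_ext rfl ?_
  funext a
  exact zero_mul _

/-- on the zero vector the map is the projection to the lens space followed by the zero section -/
theorem lensTot_zero :
    ofClosed (X := LC.of (LS lam κ)) (Y := LC.of (LS lam κ × (Fin d → ℂ)))
        (fun x => (x, (0 : Fin d → ℂ)))
        (Function.LeftInverse.isClosedEmbedding (f := Prod.fst) (fun _ => rfl) continuous_fst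
          (by fun_prop)) ≫ lensTot lam κ q j d =
      cmap (X := LC.of (LS lam κ)) (Y := LC.of (Lens q κ))
          ⟨lensMap lam κ q, continuous_lensMap lam κ q⟩ ≫
        zeroMor (Z := LC.of (Lens q κ)) (copies d (lensLine q κ j)) := by
  apply LC.hom_ext
  intro x
  exact congrArg (OnePoint.some (X := (copies d (lensLine q κ j)).E)) (ltE_zero κ q j d x)

end Vale.Agent.P241.H14
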